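import Crest.Agent.X262.Wd54.Defs
import Crest.Agent.X262.Val40.Cfg
import Crest.Agent.X262.Hb.Sat2
import Crest.Agent.X262.Tr89.Fib
import Crest.Agent.X262.Div34.Spec

/-!
# Row 262, road B, WDVV (helper43): pull-back of the weighted virtual number

* `cp_map`, `cp_gau`, `mcls_map`, `trm_map` : naturality of the integrand;
* `fib_rn`, `itg_poly` : integration along the fibres;
* `pbdStmt : Wd54.PbdStmt`.
-/

set_option autoImplicit false
set_option linter.unusedSectionVars false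

noncomputable section

namespace Crest.Agent.X262.Pbd43

open Crest.Agent.X277 Crest.Agent.X277.BD Crest.Agent.X277.Pst Crest.Agent.X277.BD.Cyc Polynomial
open Crest.Agent.X262.Geo (od essFT_Rf od_eq_zero)
open Crest.Agent.X262.Hb Crest.Agent.X262.Vb Crest.Agent.X262.Wd54 Crest.Agent.X262.Val40
open Crest.Agent.X262.Div (rn cw)
open List (replicate)

variable {J : Type} [Fintype J] [DecidableEq J] {io : J → Type} [∀ j, Fintype (io j)]
  [∀ j, DecidableEq (io j)] {A : Type} [Fintype A] {B : Th} (hB : B.Ax) (T : Tgt io A)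
  {I M K E : Type} [Fintype I] [Field K] [Algebra ℂ K] [Algebra.EssFiniteType ℂ K] [Field E]
  [Algebra ℂ E] [Algebra.EssFiniteType ℂ E]

theorem rd_hom {P : Type} [Fintype P] (θ : K →ₐ[ℂ] E) (U : Submodule K (P → K)) :
    rd (LP.hom θ) U = mapS θ U := by
  simp only [rd, mapS, LP.r_hom, LP.mem_hom_V, implies_true, true_and]

theorem prim_hom (θ : K →ₐ[ℂ] E) {y : Pnt io K} (h : NZ y) : Prim (LP.hom θ).V y := fun j =>
  ⟨fun _ => LP.mem_hom_V θ _, (h j).imp fun i hi => Pl.r_ne_zero_iff.1 (by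
    rw [LP.r_hom]
    exact (map_ne_zero θ).2 hi)⟩

theorem on_map (θ : K →ₐ[ℂ] E) (z : Cfg io I K) : (z.map θ).On T ↔ z.On T :=
  forall_congr' fun _ => on_map_iff T θ

variable {T} in
theorem mcls_map {Φ : MFam B io M} (hΦ : MCls B T Φ) (θ : K →ₐ[ℂ] E) {y : M → Pnt io K}
    (h1 : ∀ q, NZ (y q)) (h2 : ∀ q, T.On (y q)) :
    Φ E (fun q j i => θ (y q j i)) = B.pb (LP.hom θ) (Φ K y) := by
  rw [hΦ.nat K E (LP.hom θ) y (fun q => prim_hom θ (h1 q)) h2]
  congr 1
  funext q j i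
  exact (LP.r_hom θ _).symm

include hB

theorem cp_map (θ : K →ₐ[ℂ] E) (z : Cfg io I K) :
    B.cp ((z.map θ).ea T) ((z.map θ).Eb T) =
      (B.cp (z.ea T) (z.Eb T)).map (B.pb (LP.hom θ) : B.H K →+* B.H E) := by
  rw [hB.cp_rd (p := LP.hom θ) fun _ => val_of_top rfl _, rd_hom, ea_map, Eb_map]
  rfl

theorem cq_map (θ : K →ₐ[ℂ] E) (z : Cfg io I K) :
    B.cq ((z.map θ).ea T) ((z.map θ).Eb T) =
      (B.cq (z.ea T) (z.Eb T)).map (B.pb (LP.hom θ) : B.H K →+* B.H E) := by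
  rw [hB.cq_rd (p := LP.hom θ) fun _ => val_of_top rfl _, rd_hom, ea_map, Eb_map]
  rfl

theorem cp_gau {c : I → J → E} (hc : ∀ q j, c q j ≠ 0) {z : Cfg io I E} (hz : z.NZ) :
    B.cp ((z.gau c).ea T) ((z.gau c).Eb T) = B.cp (z.ea T) (z.Eb T) := by
  rw [Eb_gau T hc]
  rw [ea_gau T hc hz]
  exact hB.cp_dia (a := z.ea T) (c := fun x : A × I => Node22.chr (c x.2) (T.k x.1))
    (fun x => Node22.chr_ne (hc x.2) _) (fun _ => rfl) (z.Eb T)

/-- naturality of the integrand -/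
theorem trm_map (θ : K →ₐ[ℂ] E) {z : Cfg io I K} (hz : z.NZ) (m : M → I) {Φ : MFam B io M}
    (hΦ : MCls B T Φ) {W : RZ ℂ E} (hW : Dvs W) (hV : Dvs (dn θ W))
    (h : od (dn θ W) (z.dv T) ≠ 0) :
    trm B T (z.map θ) m Φ W = B.pb (LP.hom (rf θ W)) (trm B T z m Φ (dn θ W)) := by
  have := essFT_Rf hW
  have := essFT_Rf hV
  obtain ⟨c, hc, h1⟩ := Sq.red (θ := θ) (p := plV (dn θ W)) (q := plV W) (ρ := rf θ W)
    ⟨fun _ => Iff.rfl, fun x => (rf_r θ W x).symm⟩ z
  have h2 : (z.red (plV (dn θ W))).NZ := nz_red _ hz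
  have h3 : (z.red (plV (dn θ W))).On T :=
    on_red T (lnr_plV _) z ((od_eq_zero hV).not.1 h)
  have h4 : ((z.red (plV (dn θ W))).map (rf θ W)).NZ := fun q => nz_map _ (h2 q)
  rw [trm, trm, map_mul, h1, exc, exc, Th.cq, cp_gau hB T hc h4, ← Th.cq, cq_map hB, pb_eval,
    dv_map, ← Tr89.pb_hom_c1 hB, Tr89.pb_at_hom hB,
    ← mcls_map hΦ _ (fun q => h2 (m q)) fun q => h3 (m q)]
  congr 1
  exact hΦ.scl _ _ (fun q => c (m q)) (fun q => hc (m q)) (fun q => h4 (m q))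
    fun q => (on_map T _ _).2 h3 (m q)

/-- integration along the fibres -/
theorem fib_rn (α : K →ₐ[ℂ] E) (φ : B.H K) (l : List (BD ℂ E))
    (h : l.length + dim ℂ K ≤ dim ℂ E) :
    B.itg E (Tr89.pc B l * B.pb (LP.hom α) φ) = rn α l * B.itg K φ := by
  induction α using Div.tower_ind with
  | h => rw [Div.rn_tower, Tr89.fib hB φ l h]

/-- only the top coefficient survives -/
theorem itg_poly (α : K →ₐ[ℂ] E) {Q : (B.H K)[X]} {s : ℕ} {ε : ℂ} (h : BD ℂ E)
    (h1 : Q.natDegree ≤ s) (h2 : Q.coeff s = algebraMap ℂ _ ε) (h3 : s + dim ℂ K ≤ dim ℂ E)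
    (φ : B.H K) :
    B.itg E ((Q.map (B.pb (LP.hom α) : B.H K →+* B.H E)).eval (B.c1 h) * B.pb (LP.hom α) φ) =
      rn α (replicate s h) * (ε * B.itg K φ) := by
  rw [eval_eq_sum_range' (n := s + 1) (Nat.lt_succ_of_le (natDegree_map_le.trans h1)),
    Finset.sum_mul, map_sum]
  have key : ∀ i ≤ s, B.itg E ((Q.map (B.pb (LP.hom α) : B.H K →+* B.H E)).coeff i * B.c1 h ^ i *
      B.pb (LP.hom α) φ) = rn α (replicate i h) * B.itg K (Q.coeff i * φ) := fun i hi => by
    rw [← fib_rn hB α _ _ (by simpa using (Nat.add_le_add_right hi _).trans h3), coeff_map,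
      Tr89.pc_replicate, map_mul (B.pb _), RingHom.coe_coe]
    congr 1
    ring
  rw [Finset.sum_range_succ, Finset.sum_eq_zero, zero_add, key s le_rfl, h2, ← Algebra.smul_def,
    map_smul, smul_eq_mul]
  intro i hi
  have hi' := Finset.mem_range.1 hi
  rw [key i hi'.le, Div.rn_of_ne α (by simp only [List.length_replicate]; omega), Int.cast_zero,
    zero_mul]

theorem ful_map (β : K →ₐ[ℂ] E) {z : Cfg io I K} (hz : z.NZ) (m : M → I) {Φ : MFam B io M}
    (hΦ : MCls B T Φ) (ω : B.H K) :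
    ful B T (z.map β) m Φ (B.pb (LP.hom β) ω) = deg β * ful B T z m Φ ω := by
  unfold ful
  by_cases h : z.On T
  · rw [if_pos h, if_pos ((on_map T β z).2 h), ← hB.deg, map_mul (B.pb _), map_mul (B.pb _),
      pb_eval, map_zero,
      cp_map hB, ← mcls_map hΦ β (fun q => hz (m q)) fun q => h (m q)]
    rfl
  · rw [if_neg h, if_neg ((on_map T β z).not.2 h), dv_map]
    refine finsum_pull β _ _ _ fun W hW hV h0 => ?_
    have := essFT_Rf hW
    have := essFT_Rf hV
    rw [trm_map hB T β hz m hΦ hW hV h0, Tr89.pb_at_hom hB, ← map_mul, hB.deg]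

theorem ful_poly (β : K →ₐ[ℂ] E) {Q : (B.H K)[X]} {s : ℕ} {ε : ℂ} (h : BD ℂ E)
    (h1 : Q.natDegree ≤ s) (h2 : Q.coeff s = algebraMap ℂ _ ε) (h3 : s + dim ℂ K ≤ dim ℂ E)
    {z : Cfg io I K} (hz : z.NZ) (m : M → I) {Φ : MFam B io M} (hΦ : MCls B T Φ) :
    ful B T (z.map β) m Φ ((Q.map (B.pb (LP.hom β) : B.H K →+* B.H E)).eval (B.c1 h)) =
      rn β (replicate s h) * ε * ful B T z m Φ 1 := by
  unfold ful
  by_cases h0 : z.On T
  · rw [if_pos h0, if_pos ((on_map T β z).2 h0), mul_assoc, ← itg_poly hB β h h1 h2 h3, one_mul,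
      map_mul (B.pb _), pb_eval, map_zero, cp_map hB,
      ← mcls_map hΦ β (fun q => hz (m q)) fun q => h0 (m q)]
    rfl
  · rw [if_neg h0, if_neg ((on_map T β z).not.2 h0), dv_map, mul_assoc,
      Div.finsum_rel β (replicate s h) _
        (fun V => ε * B.itg (Rf V) (B.pb (LP.at V) 1 * trm B T z m Φ V)) _ fun W hW hV h4 => ?_]
    · congr 1
      rw [← smul_eq_mul, smul_finsum]
      refine finsum_congr fun V => ?_
      rw [smul_finsum]
      exact finsum_congr fun _ => by rw [smul_eq_mul, mul_left_comm]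
    · have := essFT_Rf hW
      have := essFT_Rf hV
      have h5 := dim_rf hW hV.ne_top
      have h6 : (Q.map (B.pb (LP.hom β) : B.H K →+* B.H E)).map
          (B.pb (LP.at W) : B.H E →+* B.H (Rf W)) =
          (Q.map (B.pb (LP.at (dn β W)) : B.H K →+* B.H (Rf (dn β W)))).map
            (B.pb (LP.hom (rf β W)) : B.H (Rf (dn β W)) →+* B.H (Rf W)) :=
        Polynomial.ext fun i => by
          simp only [coeff_map, RingHom.coe_coe, Tr89.pb_at_hom hB]
      rw [trm_map hB T β hz m hΦ hW hV h4, pb_eval, h6, hB.pb_c1,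
        itg_poly hB (rf β W) (s := s) (ε := ε) _ (natDegree_map_le.trans h1)
          (by rw [coeff_map, h2, RingHom.coe_coe, AlgHom.commutes]) (by omega),
        map_one, one_mul, cw, List.map_replicate]
      rfl

omit hB in
/-- **pull-back of the weighted number** -/
theorem pbdStmt : PbdStmt := fun _ hB _ _ _ _ _ _ _ _ T _ _ _ _ _ _ _ _ β =>
  ⟨fun _ m _ ω hz hΦ => ful_map hB T β hz m hΦ ω, fun _ s ε h h1 h2 h3 =>
    ⟨rn β (replicate s h) * ε, fun h4 => by
      rw [Div.rn_of_ne β (by simp only [List.length_replicate]; omega), Int.cast_zero, zero_mul],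
      fun φ => by rw [itg_poly hB β h h1 h2 h3, mul_assoc],
      fun _ m _ hz hΦ => ful_poly hB T β h h1 h2 h3 hz m hΦ⟩⟩

end Crest.Agent.X262.Pbd43
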